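import Vale.Agent.P287D.Rm.Ov

/-!
# P287D: the inertia group of a place (residue characteristic zero)
-/

set_option linter.all false

open Vale.Agent.P297 (Place)
open Vale.Agent.P297Z IsLocalRing

noncomputable section

namespace Vale.Agent.P287D.Rm

variable {F K : Type} [Field F] [Field K] {G : Type*} [Group G] [MulSemiringAction G K] {σ τ : G}
  {P : Place K} {u f : K}

/-- residue characteristic zero -/
def C0 (P : Place K) : Prop := ∀ n : ℕ, n ≠ 0 → Pl.val P n = 1

theorem c0_of [CharZero K] (h : ∀ n : ℕ, (n : K)⁻¹ ∈ P.ring) : C0 P := fun n hn =>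
  val_one (Nat.cast_ne_zero.2 hn) (Pl.ord_unit P (natCast_mem _ n) (h n))

theorem C0.rs (c : C0 P) {n : ℕ} (hn : n ≠ 0) : (n : ResidueField P.ring) ≠ 0 := by
  rw [← rs_nat]
  exact rs_ne (of_val_one (c n hn)).1 (of_val_one (c n hn)).2

theorem C0.up {φ : F →+* K} {Q : Place F} (h : Ov φ P Q) (c : C0 Q) : C0 P := fun n hn => by
  obtain ⟨a, b⟩ := of_val_one (c n hn)
  obtain ⟨t, -, ht⟩ := Pl.exists_ord_eq_one Q
  rw [← map_natCast φ]
  exact val_one ((map_ne_zero φ).2 a) (by rw [h.ord ht, b, mul_zero])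

theorem C0.down {φ : F →+* K} {Q : Place F} (h : Ov φ P Q) (c : C0 P) : C0 Q := fun n hn => by
  obtain ⟨a, b⟩ := of_val_one (c n hn)
  obtain ⟨t, -, ht⟩ := Pl.exists_ord_eq_one Q
  have := h.pos (t := t) (by omega)
  rw [← map_natCast φ] at a b
  rw [h.ord ht] at b
  exact val_one ((map_ne_zero φ).1 a) ((mul_eq_zero.1 b).resolve_left this.ne')

theorem ord_prod (P : Place K) {ι : Type*} (s : Finset ι) (g : ι → K) (h : ∀ i ∈ s, g i ≠ 0) :
    P.ord (∏ i ∈ s, g i) = ∑ i ∈ s, P.ord (g i) := by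
  classical
  induction s using Finset.induction_on with
  | empty => simp
  | insert a s ha ih =>
    have h' := fun i hi => h i (Finset.mem_insert_of_mem hi)
    rw [Finset.prod_insert ha, Finset.sum_insert ha, Pl.ord_mul P (h a (Finset.mem_insert_self _ _))
      (Finset.prod_ne_zero_iff.2 h'), ih h']

theorem smul_ne (σ : G) (hf : f ≠ 0) : σ • f ≠ 0 := (smul_ne_zero_iff_ne σ).2 hf

theorem smul_nat (σ : G) (n : ℕ) : σ • (n : K) = n :=
  map_natCast (MulSemiringAction.toRingHom G K σ) n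

theorem quo_ord (h : σ ∈ dec G P) (hf : f ≠ 0) : P.ord (σ • f / f) = 0 := by
  rw [Pl.ord_div P (smul_ne σ hf) hf, dec_ord h, sub_self]

theorem quo_mem (h : σ ∈ dec G P) (hf : f ≠ 0) : σ • f / f ∈ P.ring :=
  (Pl.ord_nonneg_iff P (div_ne_zero (smul_ne σ hf) hf)).1 (quo_ord h hf).ge

variable (G P) in
/-- the character of the inertia group -/
def chi (hu : u ≠ 0) : ine G P →* ResidueField P.ring where
  toFun σ := rs P (σ.1 • u / u)
  map_one' := by simp [div_self hu, rs_one]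
  map_mul' a b := by
    have ha := ine_le a.2
    have hb := ine_le b.2
    have e : (a.1 * b.1) • u / u = a.1 • u / u * a.1 • (b.1 • u / u) := by
      rw [mul_smul, smul_div₀']; field_simp [smul_ne a.1 hu]
    rw [Subgroup.coe_mul, e, rs_mul (quo_mem ha hu) ((dec_iff.1 ha _).2 (quo_mem hb hu)),
      ine_rs a.2]

theorem chi_unit (h : σ ∈ ine G P) (hf : f ≠ 0) (h0 : P.ord f = 0) : rs P (σ • f / f) = 1 := by
  obtain ⟨a, b⟩ := (Pl.ord_eq_zero_iff P hf).1 h0
  rw [div_eq_mul_inv, rs_mul ((dec_iff.1 (ine_le h) _).2 a) b, ine_rs h, rs_inv hf h0,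
    mul_inv_cancel₀ (rs_ne hf h0)]

theorem chi_ord (h : σ ∈ ine G P) (hu : P.ord u = 1) (hf : f ≠ 0) :
    rs P (σ • f / f) = rs P (σ • u / u) ^ P.ord f := by
  have u0 : u ≠ 0 := ne_of_ord (by omega : P.ord u ≠ 0)
  have hz : u ^ P.ord f ≠ 0 := zpow_ne_zero _ u0
  have hw := div_ne_zero hf hz
  have h0 : P.ord (f / u ^ P.ord f) = 0 := by rw [Pl.ord_div _ hf hz, Pl.ord_zpow, hu]; ring
  have hd := ine_le h
  have q0 := div_ne_zero (smul_ne σ u0) u0
  have e : σ • f / f = σ • (f / u ^ P.ord f) / (f / u ^ P.ord f) * (σ • u / u) ^ P.ord f := by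
    rw [smul_div₀', smul_zpow₀', div_zpow]
    field_simp [zpow_ne_zero _ (smul_ne σ u0)]
  rw [e, rs_mul (quo_mem hd hw) ((Pl.ord_nonneg_iff P (zpow_ne_zero _ q0)).1 (by
    rw [Pl.ord_zpow, quo_ord hd u0, mul_zero])), chi_unit h hw h0, one_mul,
    rs_zpow q0 (quo_ord hd u0)]

theorem triv [Finite G] (c : C0 P) (h : ∀ σ : G, ∀ f ≠ 0, Pl.val P (σ • f - f) < Pl.val P f)
    (σ : G) (x : K) : σ • x = x := by
  classical
  have := Fintype.ofFinite G
  have hn := c _ (Fintype.card_ne_zero (α := G))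
  have n0 := (of_val_one hn).1
  have hs : ∀ τ : G, τ • ∑ ρ : G, ρ • x = ∑ ρ : G, ρ • x := fun τ => by
    rw [Finset.smul_sum]
    exact Fintype.sum_equiv (Equiv.mulLeft τ) _ _ fun ρ => (mul_smul τ ρ x).symm
  obtain ⟨y, hy⟩ : ∃ y, y = (Fintype.card G : K) * x - ∑ ρ : G, ρ • x := ⟨_, rfl⟩
  have k : ∀ τ : G, τ • y - y = Fintype.card G * (τ • x) - Fintype.card G * x := fun τ => by
    rw [hy, smul_sub, hs, smul_mul', smul_nat]; ring
  by_cases y0 : y = 0
  · have := k σ
    rw [y0, smul_zero, sub_self, eq_comm, sub_eq_zero] at this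
    exact mul_left_cancel₀ n0 this
  exfalso
  have h1 := (Pl.val P).map_sum_lt' (s := Finset.univ) (f := fun τ : G => τ • y - y) (val_pos y0)
    fun τ _ => h τ y y0
  have e : ∑ τ : G, (τ • y - y) = -(Fintype.card G * y) := by
    simp only [k]
    rw [Finset.sum_sub_distrib, ← Finset.mul_sum, Finset.sum_const, Finset.card_univ, nsmul_eq_mul,
      hy]
    ring
  rw [e, Valuation.map_neg, map_mul, hn, one_mul] at h1
  exact lt_irrefl _ h1

theorem val_lt_of_chi (h : σ ∈ ine G P) (hu : P.ord u = 1) (h1 : rs P (σ • u / u) = 1)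
    (hf : f ≠ 0) : Pl.val P (σ • f - f) < Pl.val P f := by
  have h2 := chi_ord h hu hf
  rw [h1, one_zpow, ← rs_one (P := P), rs_eq (quo_mem (ine_le h) hf) P.ring.one_mem, zr_iff] at h2
  have e : σ • f - f = (σ • f / f - 1) * f := by field_simp
  rw [e, map_mul]
  exact mul_lt_of_lt_one_left (val_pos hf) h2

/-- an inertia element with trivial character acts trivially -/
theorem chi_triv [Finite G] (c : C0 P) (h : σ ∈ ine G P) (hu : P.ord u = 1)
    (h1 : rs P (σ • u / u) = 1) (x : K) : σ • x = x :=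
  have u0 : u ≠ 0 := ne_of_ord (by omega : P.ord u ≠ 0)
  triv (G := (chi G P u0).ker) c (fun τ f hf => val_lt_of_chi τ.1.2 hu τ.2 hf) ⟨⟨σ, h⟩, h1⟩ x

theorem chi_inj [Finite G] [FaithfulSMul G K] (c : C0 P) (hu : P.ord u = 1) (u0 : u ≠ 0) :
    Function.Injective (chi G P u0) :=
  (injective_iff_map_eq_one _).2 fun a ha => Subtype.ext (eq_of_smul_eq_smul fun x : K => by
    rw [chi_triv c a.2 hu ha x, Subgroup.coe_one, one_smul])

/-- the inertia group is cyclic -/
theorem cyclic [Finite G] [FaithfulSMul G K] (c : C0 P) : IsCyclic (ine G P) := by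
  obtain ⟨u, u0, hu⟩ := Pl.exists_ord_eq_one P
  exact isCyclic_of_injective_ringHom _ (chi_inj c hu u0)

theorem chi_zpow (u0 : u ≠ 0) (a : ine G P) (n : ℤ) : chi G P u0 (a ^ n) = chi G P u0 a ^ n := by
  have h := congrArg Units.val (map_zpow (chi G P u0).toHomUnits a n)
  rwa [Units.val_zpow_eq_zpow_val] at h

theorem orderOf_dvd [Finite G] [FaithfulSMul G K] (c : C0 P) (h : σ ∈ ine G P) (hf : f ≠ 0)
    (hs : σ • f = f) : (orderOf σ : ℤ) ∣ P.ord f := by
  obtain ⟨u, u0, hu⟩ := Pl.exists_ord_eq_one P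
  have h1 := chi_ord h hu hf
  rw [hs, div_self hf, rs_one] at h1
  have h2 := chi_inj c hu u0 ((chi_zpow u0 ⟨σ, h⟩ (P.ord f)).trans
    (h1.symm.trans (map_one (chi G P u0)).symm))
  exact orderOf_dvd_iff_zpow_eq_one.2 (congrArg Subtype.val h2)

/-- the order of the inertia group divides the orders of the invariants -/
theorem card_dvd [Finite G] [FaithfulSMul G K] (c : C0 P) (hf : f ≠ 0)
    (hs : ∀ σ ∈ ine G P, σ • f = f) : (Nat.card (ine G P) : ℤ) ∣ P.ord f := by
  obtain ⟨g, hg⟩ := (cyclic (G := G) c).exists_generator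
  rw [← orderOf_eq_card_of_forall_mem_zpowers hg, ← Subgroup.orderOf_coe]
  exact orderOf_dvd c g.2 hf (hs g g.2)

/-- places with the same trace on the invariants are conjugate -/
theorem trans [Finite G] {P P' : Place K}
    (h : ∀ f, (∀ σ : G, σ • f = f) → f ∈ P.ring → f ∈ P'.ring) : ∃ σ : G, mv σ P = P' := by
  classical
  have := Fintype.ofFinite G
  by_contra hc
  push Not at hc
  obtain ⟨e, e0, e1, -, h1, h2⟩ := approx P' (((Finset.univ.image fun σ : G => mv σ P) ∪
    Finset.univ.image fun σ : G => mv σ P').erase P') (Finset.notMem_erase _ _) 0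
  have k : ∀ Q : Place K, ((0 : ℕ) : ℤ) < Q.ord e → Q.ord (e - 1) = 0 := fun Q hQ => by
    rw [← neg_sub, Pl.ord_neg, sub_eq_add_neg]
    exact (ord_one_add_of_pos Q (by simpa using hQ)).2
  have s0 : ∀ σ ∈ (Finset.univ : Finset G), σ • (e - 1) ≠ 0 := fun σ _ => smul_ne σ e1
  have n0 := Finset.prod_ne_zero_iff.2 s0
  have a1 : P.ord (∏ σ : G, σ • (e - 1)) = 0 := by
    rw [ord_prod P _ _ s0]
    exact Finset.sum_eq_zero fun σ _ => by
      rw [← ord_mv]; exact k _ (h2 _ (by simp [hc σ]))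
  have a2 : P'.ord ((1 : G) • (e - 1)) ≤ P'.ord (∏ σ : G, σ • (e - 1)) := by
    rw [ord_prod P' _ _ s0]
    refine Finset.single_le_sum (f := fun σ : G => P'.ord (σ • (e - 1))) (fun σ _ => ?_)
      (Finset.mem_univ 1)
    rw [← ord_mv]
    by_cases q : mv σ P' = P'
    · rw [q]; omega
    · exact (k _ (h2 _ (by simp [q]))).ge
  have a3 := h (∏ σ : G, σ • (e - 1))⁻¹ (fun τ => by
    rw [smul_inv'', Finset.smul_prod']
    exact congrArg _ (Fintype.prod_equiv (Equiv.mulLeft τ) _ _ fun ρ => (mul_smul τ ρ _).symm))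
    ((Pl.ord_eq_zero_iff P n0).1 a1).2
  rw [← Pl.ord_nonneg_iff P' (inv_ne_zero n0), Pl.ord_inv] at a3
  rw [one_smul] at a2
  omega

/-- the action of the decomposition group on residues -/
def dch (σ : dec G P) : P.ring →* ResidueField P.ring where
  toFun a := rs P (σ.1 • (a : K))
  map_one' := by simp [rs_one]
  map_mul' a b := by
    rw [MulMemClass.coe_mul, smul_mul', rs_mul ((dec_iff.1 σ.2 _).2 a.2) ((dec_iff.1 σ.2 _).2 b.2)]

theorem dch_eq (σ : dec G P) : dch σ = dch (1 : dec G P) ↔ σ.1 ∈ ine G P :=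
  ⟨fun h => ine_of_rs σ.2 fun f hf => by
    simpa [dch] using DFunLike.congr_fun h ⟨f, hf⟩,
   fun h => MonoidHom.ext fun a => by simpa [dch] using ine_rs h a⟩

theorem exists_tr [Fintype (dec G P)] (c : C0 P) (w : dec G P → ResidueField P.ring)
    (hw : ∀ σ, σ.1 ∈ ine G P → w σ = 1) :
    ∃ a ∈ P.ring, ∑ σ : dec G P, w σ * rs P (σ.1 • a) ≠ 0 := by
  classical
  by_contra hc
  push Not at hc
  have h := linearIndependent_iff.1 (linearIndependent_monoidHom P.ring (ResidueField P.ring))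
    (∑ σ : dec G P, Finsupp.single (dch σ) (w σ)) (by
      rw [map_sum]
      funext a
      simpa [dch] using hc a a.2)
  have h1 := DFunLike.congr_fun h (dch (1 : dec G P))
  rw [Finsupp.finset_sum_apply, Finsupp.zero_apply,
    Finset.sum_congr rfl (g := fun σ : dec G P => if σ.1 ∈ ine G P then 1 else 0) fun σ _ => by
      rw [Finsupp.single_apply]
      exact if_ctx_congr (dch_eq σ) (hw σ) fun _ => rfl, Finset.sum_boole] at h1
  exact c.rs (Finset.card_ne_zero.2 ⟨1, by simp [one_mem]⟩) h1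

/-- an invariant whose order is the order of the inertia group -/
theorem exists_ord_card [Finite G] (c : C0 P) :
    ∃ f ≠ 0, (∀ σ : G, σ • f = f) ∧ P.ord f = Nat.card (ine G P) := by
  classical
  have := Fintype.ofFinite G
  obtain ⟨u, u0, hu⟩ := Pl.exists_ord_eq_one P
  obtain ⟨n, hn⟩ : ∃ n, n = ∏ s : ine G P, s.1 • u := ⟨_, rfl⟩
  have s0 : ∀ s ∈ (Finset.univ : Finset (ine G P)), s.1 • u ≠ 0 := fun s _ => smul_ne _ u0
  have n0 : n ≠ 0 := hn ▸ Finset.prod_ne_zero_iff.2 s0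
  have n1 : P.ord n = Nat.card (ine G P) := by
    rw [hn, ord_prod P _ _ s0, Finset.sum_congr rfl fun s _ => (dec_ord (ine_le s.2) u).trans hu]
    simp
  have n2 : ∀ σ ∈ ine G P, σ • n = n := fun σ hσ => by
    rw [hn, Finset.smul_prod']
    exact Fintype.prod_equiv (Equiv.mulLeft (⟨σ, hσ⟩ : ine G P)) _ _ fun ρ =>
      (mul_smul σ ρ.1 u).symm
  obtain ⟨a, ha, h1⟩ := exists_tr c (fun σ : dec G P => rs P (σ.1 • n / n)) fun σ hσ => by
    rw [n2 _ hσ, div_self n0, rs_one]
  have a0 : a ≠ 0 := by rintro rfl; simp [rs_zero] at h1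
  have an := mul_ne_zero a0 n0
  obtain ⟨e, e0, e1, -, h2, h3⟩ := approx P ((Finset.univ.image fun σ : G => mv σ P).erase P)
    (Finset.notMem_erase _ _) (Finset.univ.sup fun σ : G => (P.ord n - P.ord (σ • (a * n))).toNat)
  have m : ∀ σ : dec G P, σ.1 • n / n * σ.1 • a ∈ P.ring := fun σ =>
    mul_mem (quo_mem σ.2 n0) ((dec_iff.1 σ.2 _).2 ha)
  rw [← Finset.sum_congr rfl fun (σ : dec G P) _ =>
    rs_mul (quo_mem σ.2 n0) ((dec_iff.1 σ.2 _).2 ha), ← rs_sum _ _ fun σ _ => m σ,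
    ← Finset.sum_subtype (Finset.univ.filter (· ∈ dec G P)) (by simp)
      fun σ : G => σ • n / n * σ • a, Finset.sum_filter] at h1
  have h4 := val_one (of_rs_ne h1).1 (of_rs_ne h1).2
  have h5 := (Pl.val P).map_sum_lt (s := Finset.univ) (f := fun σ : G =>
    σ • (a * n * e) / n - if σ ∈ dec G P then σ • n / n * σ • a else 0) one_ne_zero fun σ _ => by
    split_ifs with q
    · have : σ • (a * n * e) / n - σ • n / n * σ • a = σ • n / n * σ • a * σ • (e - 1) := by
        rw [smul_mul', smul_mul', smul_sub, smul_one]; ring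
      rw [this, map_mul, dec_val q]
      exact mul_lt_one_of_nonneg_of_lt_one_right ((Pl.mem_ring_iff P _).1 (m ⟨σ, q⟩)) zero_le'
        (zr_iff.1 (Or.inr (by omega)))
    · refine zr_iff.1 (Or.inr ?_)
      have b1 := h3 (mv σ P) (by simpa [mem_dec] using q)
      have b2 := Finset.le_sup (f := fun σ : G => (P.ord n - P.ord (σ • (a * n))).toNat)
        (Finset.mem_univ σ)
      have b3 := Int.self_le_toNat (P.ord n - P.ord (σ • (a * n)))
      rw [ord_mv] at b1
      rw [sub_zero, Pl.ord_div P (smul_ne σ (mul_ne_zero an e0)) n0, smul_mul',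
        Pl.ord_mul P (smul_ne σ an) (smul_ne σ e0)]
      omega
  rw [Finset.sum_sub_distrib, ← Finset.sum_div, ← h4] at h5
  obtain ⟨b1, b2⟩ := of_val_one (((Pl.val P).map_eq_of_sub_lt h5).trans h4)
  have f0 := (div_ne_zero_iff.1 b1).1
  refine ⟨_, f0, fun τ => ?_, ?_⟩
  · rw [Finset.smul_sum]
    exact Fintype.sum_equiv (Equiv.mulLeft τ) _ _ fun ρ => (mul_smul τ ρ _).symm
  · rw [Pl.ord_div P f0 n0] at b2
    omega

end Vale.Agent.P287D.Rm
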