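import Vale.Agent.P297Z.Surf.Ord
import Mathlib

/-!
# P287D: weak approximation for places
-/

set_option linter.all false

open Vale.Agent.P297 (Place)
open Vale.Agent.P297Z

namespace Vale.Agent.P287D.Rm

variable {K : Type*} [Field K]

theorem ord_one_add_of_pos (P : Place K) {x : K} (h : 0 < P.ord x) :
    1 + x ≠ 0 ∧ P.ord (1 + x) = 0 := by
  have hx : x ≠ 0 := by rintro rfl; simp at h
  refine ⟨fun e => ?_, ?_⟩
  · have : x = -1 := by linear_combination e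
    rw [this, Pl.ord_neg, Pl.ord_one] at h
    omega
  · rw [Pl.ord_add_eq_of_lt P one_ne_zero hx (by simpa using h), Pl.ord_one]

theorem ord_one_add_of_neg (P : Place K) {x : K} (h : P.ord x < 0) :
    1 + x ≠ 0 ∧ P.ord (1 + x) = P.ord x := by
  have hx : x ≠ 0 := by rintro rfl; simp at h
  refine ⟨fun e => ?_, ?_⟩
  · have : x = -1 := by linear_combination e
    rw [this, Pl.ord_neg, Pl.ord_one] at h
    omega
  · rw [add_comm, Pl.ord_add_eq_of_lt P hx one_ne_zero (by simpa using h)]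

theorem ord_neg_of_notMem (P : Place K) {x : K} (h : x ∉ P.ring) : x ≠ 0 ∧ P.ord x < 0 := by
  have hx : x ≠ 0 := by rintro rfl; exact h P.ring.zero_mem
  exact ⟨hx, by rw [← Pl.ord_nonneg_iff P hx] at h; omega⟩

theorem sep_one {P Q : Place K} (h : P ≠ Q) : ∃ a : K, P.ord a < 0 ∧ 0 < Q.ord a := by
  obtain ⟨x, hx, hx'⟩ := SetLike.not_le_iff_exists.1 fun e => h (Pl.eq_of_le' e)
  obtain ⟨y, hy, hy'⟩ := SetLike.not_le_iff_exists.1 fun e => h (Pl.eq_of_le' e).symm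
  obtain ⟨x0, x1⟩ := ord_neg_of_notMem Q hx'
  obtain ⟨y0, y1⟩ := ord_neg_of_notMem P hy'
  have := Pl.ord_nonneg_of_mem P hx
  have := Pl.ord_nonneg_of_mem Q hy
  refine ⟨y / x, ?_, ?_⟩
  · rw [Pl.ord_div P y0 x0]; omega
  · rw [Pl.ord_div Q y0 x0]; omega

theorem ne_of_ord {P : Place K} {a : K} (h : P.ord a ≠ 0) : a ≠ 0 := by
  rintro rfl; simp at h

theorem sep (P : Place K) (T : Finset (Place K)) (h : P ∉ T) :
    ∃ a : K, P.ord a < 0 ∧ ∀ Q ∈ T, 0 < Q.ord a := by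
  classical
  induction T using Finset.induction_on with
  | empty =>
    obtain ⟨x, -, h1⟩ := Pl.exists_ord_eq_one P
    exact ⟨x⁻¹, by rw [Pl.ord_inv]; omega, by simp⟩
  | insert R T _ ih =>
    rw [Finset.mem_insert, not_or] at h
    obtain ⟨a, ha, hT⟩ := ih h.2
    obtain ⟨b, hb, hR⟩ := sep_one h.1
    have a0 := ne_of_ord ha.ne
    have b0 := ne_of_ord hb.ne
    obtain ⟨n, n0, hn⟩ : ∃ n : ℕ, 0 < n ∧ ∀ Q ∈ T, -Q.ord b < n := by
      refine ⟨T.sup (fun Q => (-Q.ord b).toNat) + 1, Nat.succ_pos _, fun Q hQ => ?_⟩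
      have := Finset.le_sup (f := fun Q : Place K => (-Q.ord b).toNat) hQ
      have := Int.self_le_toNat (-Q.ord b)
      push_cast
      omega
    have p0 := pow_ne_zero n a0
    have n1 : (0 : ℤ) < n := by exact_mod_cast n0
    have k : ∀ Q ∈ T, 0 < (n : ℤ) * Q.ord a + Q.ord b := fun Q hQ => by
      have := hn Q hQ
      have := hT Q hQ
      nlinarith
    by_cases c : 0 ≤ R.ord a
    · refine ⟨a ^ n * b, ?_, fun Q hQ => ?_⟩
      · rw [Pl.ord_mul P p0 b0, Pl.ord_pow]; nlinarith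
      · rw [Pl.ord_mul Q p0 b0, Pl.ord_pow]
        rcases Finset.mem_insert.1 hQ with rfl | hQ
        · positivity
        · exact k Q hQ
    · have u := ord_one_add_of_neg P (x := a ^ n) (by rw [Pl.ord_pow]; nlinarith)
      refine ⟨a ^ n / (1 + a ^ n) * b, ?_, fun Q hQ => ?_⟩
      · rw [Pl.ord_mul P (div_ne_zero p0 u.1) b0, Pl.ord_div P p0 u.1, u.2]; omega
      · rw [Pl.ord_mul Q (div_ne_zero p0 u.1) b0, Pl.ord_div Q p0 u.1]
        rcases Finset.mem_insert.1 hQ with rfl | hQ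
        · rw [(ord_one_add_of_neg Q (x := a ^ n) (by rw [Pl.ord_pow]; nlinarith)).2]; omega
        · rw [(ord_one_add_of_pos Q (x := a ^ n) (by
            rw [Pl.ord_pow]; exact mul_pos n1 (hT Q hQ))).2, Pl.ord_pow, sub_zero]
          exact k Q hQ

/-- weak approximation -/
theorem approx (P : Place K) (T : Finset (Place K)) (h : P ∉ T) (N : ℕ) :
    ∃ e : K, e ≠ 0 ∧ e - 1 ≠ 0 ∧ P.ord e = 0 ∧ (N : ℤ) < P.ord (e - 1) ∧
      ∀ Q ∈ T, (N : ℤ) < Q.ord e := by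
  obtain ⟨a, ha, hT⟩ := sep P T h
  have a0 := ne_of_ord ha.ne
  have p0 := pow_ne_zero (N + 1) a0
  have u := ord_one_add_of_neg P (x := a ^ (N + 1)) (by rw [Pl.ord_pow]; push_cast; nlinarith)
  have e : a ^ (N + 1) / (1 + a ^ (N + 1)) - 1 = -(1 + a ^ (N + 1))⁻¹ := by
    field_simp [u.1]; ring
  refine ⟨a ^ (N + 1) / (1 + a ^ (N + 1)), div_ne_zero p0 u.1, ?_, ?_, ?_, fun Q hQ => ?_⟩
  · rw [e]; exact neg_ne_zero.2 (inv_ne_zero u.1)
  · rw [Pl.ord_div P p0 u.1, u.2, sub_self]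
  · rw [e, Pl.ord_neg, Pl.ord_inv, u.2, Pl.ord_pow]; push_cast; nlinarith
  · have := hT Q hQ
    rw [Pl.ord_div Q p0 u.1, (ord_one_add_of_pos Q (x := a ^ (N + 1)) (by
      rw [Pl.ord_pow]; positivity)).2, Pl.ord_pow]
    push_cast; nlinarith

end Vale.Agent.P287D.Rm
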