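import Vale.Agent.P287D.Rm.Ine
import Vale.Agent.P287D.Hd.Cm
import Vale.Agent.P287D.Iso.Bas
import Vale.Agent.P287D.Pb.Up

/-!
# P287D: the row GAL
-/

set_option linter.all false

open Vale.Agent.P297 (Place)
open Vale.Agent.P297Z Set

noncomputable section

namespace Vale.Agent.P287D

namespace Rm

variable {F K : Type} [Field F] [Field K] {G : Type*} [Group G] [MulSemiringAction G K]
  {P : Place K} {Q : Place F}

/-- the ramification index over the invariants is the order of the inertia group -/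
theorem e_eq [Finite G] [FaithfulSMul G K] (c : C0 P) {i : F →+* K}
    (hi : ∀ f, f ∈ range i ↔ ∀ σ : G, σ • f = f) (h : Ov i P Q) {t : F} (ht : Q.ord t = 1) :
    P.ord (i t) = Nat.card (ine G P) := by
  obtain ⟨f, -, h1, h2⟩ := exists_ord_card (G := G) c
  obtain ⟨x, rfl⟩ := (hi f).2 h1
  have h3 := h.pos (t := t) (by omega)
  exact Int.dvd_antisymm h3.le (Int.natCast_nonneg _) ⟨_, h2.symm.trans (h.ord ht x)⟩
    (card_dvd c (ne_of_ord h3.ne') fun σ _ => (hi _).1 ⟨t, rfl⟩ σ)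

/-- residues fixed by the decomposition group are residues of invariants -/
theorem exists_inv_rs [Finite G] (c : C0 P) {a : K} (ha : a ∈ P.ring)
    (h : ∀ σ ∈ dec G P, rs P (σ • a) = rs P a) :
    ∃ f ∈ P.ring, (∀ σ : G, σ • f = f) ∧ rs P f = rs P a := by
  classical
  have := Fintype.ofFinite G
  by_cases a0 : a = 0
  · exact ⟨0, zero_mem _, fun _ => smul_zero _, by rw [a0]⟩
  obtain ⟨e, e0, e1, -, h2, h3⟩ := approx P ((Finset.univ.image fun σ : G => mv σ P).erase P)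
    (Finset.notMem_erase _ _) (Finset.univ.sup fun σ : G => (-P.ord (σ • a)).toNat)
  have h5 := (Pl.val P).map_sum_lt (s := Finset.univ) (f := fun σ : G =>
    σ • (a * e) - if σ ∈ dec G P then a else 0) one_ne_zero fun σ _ => by
    split_ifs with q
    · have : σ • (a * e) - a = σ • (a * (e - 1)) + (σ • a - a) := by
        rw [mul_sub, mul_one, smul_sub]; ring
      rw [this]
      refine Valuation.map_add_lt _ ?_ (zr_iff.1 ((rs_eq ((dec_iff.1 q _).2 ha) ha).1 (h σ q)))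
      rw [dec_val q, map_mul]
      exact mul_lt_one_of_nonneg_of_lt_one_right ((Pl.mem_ring_iff P _).1 ha) zero_le'
        (zr_iff.1 (Or.inr (by omega)))
    · refine zr_iff.1 (Or.inr ?_)
      have b1 := h3 (mv σ P) (by simpa [mem_dec] using q)
      have b2 := Finset.le_sup (f := fun σ : G => (-P.ord (σ • a)).toNat) (Finset.mem_univ σ)
      have b3 := Int.self_le_toNat (-P.ord (σ • a))
      rw [ord_mv] at b1
      rw [sub_zero, smul_mul', Pl.ord_mul P (smul_ne σ a0) (smul_ne σ e0)]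
      omega
  rw [Finset.sum_sub_distrib, ← Finset.sum_filter, Finset.sum_const, nsmul_eq_mul] at h5
  generalize hm : (Finset.univ.filter fun σ : G => σ ∈ dec G P).card = m at h5
  have m0 : m ≠ 0 := hm ▸ Finset.card_ne_zero.2 ⟨1, by simp [one_mem]⟩
  have m1 := c m m0
  have m2 := (of_val_one m1).1
  have h6 : Zr P ((∑ σ : G, σ • (a * e)) / m - a) := by
    rw [zr_iff, div_sub' m2, map_div₀, m1, div_one]
    exact h5
  have h7 : (∑ σ : G, σ • (a * e)) / m ∈ P.ring := by simpa using add_mem h6.mem ha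
  refine ⟨_, h7, fun τ => ?_, (rs_eq h7 ha).2 h6⟩
  rw [smul_div₀', smul_nat, Finset.smul_sum]
  exact congrArg (· / (m : K))
    (Fintype.sum_equiv (Equiv.mulLeft τ) _ _ fun ρ => (mul_smul τ ρ _).symm)

end Rm

namespace Hd

open Rm

variable {L K : Type} [Field L] [Algebra ℂ L] [Field K] [Algebra ℂ K] [Algebra L K]

theorem c0 (P : Pl K) : C0 P.toPlace :=
  haveI := charZero_of_injective_algebraMap (algebraMap ℂ K).injective
  c0_of fun n => by simpa using P.con (n : ℂ)⁻¹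

theorem rd_rs (P : Pl K) (f : K) : P.rd f = rs P.toPlace f := rfl

theorem ine_iff {P : Pl K} {σ : K ≃ₐ[L] K} : Ine P σ ↔ σ ∈ ine (K ≃ₐ[L] K) P.toPlace :=
  ⟨fun h f hf => (rs_eq (h f hf).1 hf).1 (h f hf).2,
    fun h f hf => ⟨(dec_iff.1 (ine_le h) f).2 hf, ine_rs h f⟩⟩

theorem ei_gt {P : Pl K} {Q : Pl L} (h : Ov L P Q) : 0 < ei P Q := h.e_pos

theorem ei_ord {P : Pl K} {Q : Pl L} (h : Ov L P Q) (x : L) :
    P.ord (algebraMap L K x) = ei P Q * Q.ord x := h.ord x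

theorem ei_card [FiniteDimensional L K] [IsGalois L K] {P : Pl K} {Q : Pl L} (h : Ov L P Q) :
    ei P Q = Nat.card (ine (K ≃ₐ[L] K) P.toPlace) :=
  e_eq (c0 P) (Q := Q.toPlace) (IsGalois.mem_range_algebraMap_iff_fixed) h (Pb.ord_t Q)

theorem conj_of [FiniteDimensional L K] [IsGalois L K] {P P' : Pl K} {Q : Pl L} (h : Ov L P Q)
    (h' : Ov L P' Q) : ∃ σ : K ≃ₐ[L] K, ∀ f, P'.ord (σ f) = P.ord f := by
  obtain ⟨σ, hσ⟩ := Rm.trans (G := K ≃ₐ[L] K) (P := P'.toPlace) (P' := P.toPlace) fun f hf h1 => by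
    obtain ⟨x, rfl⟩ := (IsGalois.mem_range_algebraMap_iff_fixed f).2 hf
    exact (h x).1 ((h' x).2 h1)
  exact ⟨σ, fun f => by rw [← hσ, ord_mv]; rfl⟩

theorem ei_eq [FiniteDimensional L K] [IsGalois L K] {P P' : Pl K} {Q : Pl L} (h : Ov L P Q)
    (h' : Ov L P' Q) : ei P' Q = ei P Q := by
  obtain ⟨σ, hσ⟩ := conj_of h h'
  rw [ei, ei, ← hσ, σ.commutes]

variable [IsScalarTower ℂ L K]

/-- the conjugate place -/
def cj (σ : K ≃ₐ[L] K) (P : Pl K) : Pl K := (Semi.of_alg (σ.restrictScalars ℂ)).pl P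

theorem mem_cj (σ : K ≃ₐ[L] K) (P : Pl K) (f : K) : σ f ∈ (cj σ P).ring ↔ f ∈ P.ring :=
  (Semi.of_alg (σ.restrictScalars ℂ)).mem_pl

theorem ord_cj (σ : K ≃ₐ[L] K) (P : Pl K) (f : K) : (cj σ P).ord (σ f) = P.ord f :=
  (Semi.of_alg (σ.restrictScalars ℂ)).ord_pl P f

theorem ov_cj (σ : K ≃ₐ[L] K) {P : Pl K} {Q : Pl L} (h : Ov L P Q) : Ov L (cj σ P) Q := fun x => by
  rw [h x, ← mem_cj σ, σ.commutes]

theorem av_eq [FiniteDimensional L K] [IsGalois L K] {D : BD K} (hD : D ∈ Prn K) :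
    ∃ D₀ ∈ Prn L, ∀ (Q : Pl L) (P : Pl K), Ov L P Q →
      (ei P Q : ℝ) * D₀ Q = ∑ σ : K ≃ₐ[L] K, D (cj σ P) := by
  induction hD using Submodule.span_induction with
  | mem _ h =>
    obtain ⟨f, rfl⟩ := h
    by_cases f0 : f = 0
    · exact ⟨0, zero_mem _, fun Q P _ => by simp [f0, dv]⟩
    refine ⟨dv (Algebra.norm L f), Submodule.subset_span ⟨_, rfl⟩, fun Q P h => ?_⟩
    have h1 := ei_ord h (Algebra.norm L f)
    rw [Algebra.norm_eq_prod_automorphisms, ord_prod _ _ _ fun σ _ => (map_ne_zero σ).2 f0] at h1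
    simp only [dv]
    rw [← Int.cast_mul, ← h1, Int.cast_sum]
    refine Fintype.sum_equiv (Equiv.inv _) _ _ fun σ => ?_
    rw [← ord_cj σ⁻¹ P]
    simp
  | zero => exact ⟨0, zero_mem _, fun Q P _ => by simp⟩
  | add _ _ _ _ h h' =>
    obtain ⟨a, ha, h⟩ := h
    obtain ⟨b, hb, h'⟩ := h'
    exact ⟨a + b, add_mem ha hb, fun Q P o => by
      simp only [Pi.add_apply, mul_add, h Q P o, h' Q P o, Finset.sum_add_distrib]⟩
  | smul r _ _ h =>
    obtain ⟨a, ha, h⟩ := h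
    exact ⟨r • a, Submodule.smul_mem _ _ ha, fun Q P o => by
      simp only [Pi.smul_apply, smul_eq_mul, ← Finset.mul_sum, ← h Q P o]; ring⟩

theorem inr_of [FiniteDimensional L K] [IsGalois L K] {P : Pl K} {Q : Pl L} (h : Ov L P Q) :
    (Nat.card {σ : K ≃ₐ[L] K // Ine P σ} : ℤ) = ei P Q := by
  rw [ei_card h, Nat.card_congr (Equiv.subtypeEquivRight fun _ => ine_iff)]

theorem dec_of [FiniteDimensional L K] [IsGalois L K] (P : Pl K) {a : K} (ha : a ∈ P.ring)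
    (hn : P.rd a ∉ Rs L P) :
    ∃ σ : K ≃ₐ[L] K, (∀ f, P.ord (σ f) = P.ord f) ∧ P.rd (σ a) ≠ P.rd a := by
  by_contra hc
  push Not at hc
  obtain ⟨f, -, h1, h2⟩ := exists_inv_rs (G := K ≃ₐ[L] K) (c0 P) ha fun σ hσ =>
    (rd_rs P _).symm.trans ((hc σ fun f => dec_ord hσ f).trans (rd_rs P _))
  obtain ⟨x, hx⟩ := (IsGalois.mem_range_algebraMap_iff_fixed (F := L) f).2 h1
  have h3 := rd_mem_Rs P x
  rw [hx, rd_rs, h2, ← rd_rs] at h3
  exact hn h3

theorem av_of [FiniteDimensional L K] [IsGalois L K] (up : ∀ Q : Pl L, ∃ P : Pl K, Ov L P Q)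
    {D : BD K} (hD : D ∈ Prn K) : ∃ D₀ ∈ Prn L, ∀ (Q : Pl L) (r : ℝ),
      (∀ P : Pl K, Ov L P Q → ei P Q * r ≤ D P) → r ≤ D₀ Q := by
  obtain ⟨D₀, h0, h⟩ := av_eq (L := L) hD
  have hc : (0 : ℝ) < Fintype.card (K ≃ₐ[L] K) := Nat.cast_pos.2 Fintype.card_pos
  refine ⟨(Fintype.card (K ≃ₐ[L] K) : ℝ)⁻¹ • D₀, Submodule.smul_mem _ _ h0, fun Q r hr => ?_⟩
  obtain ⟨P, o⟩ := up Q
  have h1 := Finset.card_nsmul_le_sum Finset.univ (fun σ : K ≃ₐ[L] K => D (cj σ P))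
    (ei P Q * r) fun σ _ => by rw [← ei_eq o (ov_cj σ o)]; exact hr _ (ov_cj σ o)
  have h2 : (0 : ℝ) < ei P Q := Int.cast_pos.2 (ei_gt o)
  rw [← h Q P o, nsmul_eq_mul, Finset.card_univ, mul_left_comm, mul_le_mul_iff_right₀ h2] at h1
  rw [Pi.smul_apply, smul_eq_mul, le_inv_mul_iff₀ hc]
  exact h1

/-- the row **GAL** from the existence of places above a place -/
theorem gal_of (up : ∀ (n m : ℕ), ForH fun K K' _ _ _ _ φ => FF K n → FF K' m →
    (∀ c, φ (algebraMap ℂ K c) = algebraMap ℂ K' c) → ∀ Q : Pl K, ∃ P, Lies φ P Q) : GAL where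
  act _ _ _ _ _ _ _ _ σ P := ⟨cj σ P, mem_cj σ P, ord_cj σ P, fun _ => ov_cj σ⟩
  trs _ _ _ _ _ _ _ _ _ _ _ _ _ h h' := conj_of h h'
  inr _ _ _ _ _ _ _ _ _ _ _ _ h := inr_of h
  dec _ _ _ _ _ _ _ _ _ _ P _ _ _ ha hn := dec_of P ha hn
  av L K _ _ _ _ _ _ n hL _ _ _ hD := av_of (up n n L K (algebraMap L K) hL (ff_up hL)
      fun c => (IsScalarTower.algebraMap_apply ℂ L K c).symm) hD

/-- the row **GAL** -/
theorem gal : GAL := gal_of pb_up

end Hd

end Vale.Agent.P287D
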