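import Vale.Agent.P287D.Rm.Gal

/-!
# P287D: the row ABH
-/

set_option linter.all false

open Vale.Agent.P297 (Place)
open Vale.Agent.P297Z Set

noncomputable section

namespace Vale.Agent.P287D.Hd

open Rm

theorem tv_up {L J F : Type} [Field L] [Algebra ℂ L] [Field J] [Algebra ℂ J] [Field F]
    [Algebra ℂ F] [Algebra L J] [Algebra J F] [Algebra L F] [IsScalarTower L J F]
    [Algebra.IsAlgebraic L J] {P : Pl F} (h : Tv L P) : Tv J P := fun f => by
  let : Algebra L P.ring := ((algebraMap L F).codRestrict P.ring h).toAlgebra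
  have : IsScalarTower L P.ring F := .of_algebraMap_eq fun _ => rfl
  obtain ⟨y, hy⟩ := IsIntegrallyClosed.isIntegral_iff.1
    (((Algebra.IsIntegral.isIntegral (R := L) f).algebraMap (B := F)).tower_top (A := P.ring))
  exact hy ▸ y.2

theorem ei_tow {J L K : Type} [Field J] [Algebra ℂ J] [Field L] [Algebra ℂ L] [Field K]
    [Algebra ℂ K] [Algebra J L] [Algebra L K] [Algebra J K] [IsScalarTower J L K] {P : Pl K}
    {Q : Pl L} (h : Ov L P Q) (R : Pl J) : ei P R = ei P Q * ei Q R := by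
  rw [ei, IsScalarTower.algebraMap_apply J L K, ei_ord h]; rfl

theorem ov_trans {J L K : Type} [Field J] [Algebra ℂ J] [Field L] [Algebra ℂ L] [Field K]
    [Algebra ℂ K] [Algebra J L] [Algebra L K] [Algebra J K] [IsScalarTower J L K] {P : Pl K}
    {Q : Pl L} (h : Ov L P Q) {R : Pl J} : Ov J Q R ↔ Ov J P R :=
  forall_congr' fun f => by rw [IsScalarTower.algebraMap_apply J L K, ← h]

namespace Tow

variable {K₀ K : Type} [Field K₀] [Algebra ℂ K₀] [Field K] [Algebra ℂ K] [Algebra K₀ K]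
  (T : Tow K₀ K)

/-- the action on the constants -/
def ρ (σ : T.F ≃ₐ[K] T.F) : T.J ≃ₐ[K₀] T.J := (σ.restrictScalars K₀).restrictNormal T.J

theorem ρ_spec (σ : T.F ≃ₐ[K] T.F) (c : T.J) :
    algebraMap T.J T.F (T.ρ σ c) = σ (algebraMap T.J T.F c) :=
  (σ.restrictScalars K₀).restrictNormal_commutes T.J c

theorem ext_J {σ τ : T.F ≃ₐ[K] T.F}
    (h : ∀ c, σ (algebraMap T.J T.F c) = τ (algebraMap T.J T.F c)) : σ = τ := by
  ext x
  have hx : x ∈ IntermediateField.adjoin K (range (algebraMap T.J T.F)) := T.gen ▸ trivial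
  induction hx using IntermediateField.adjoin_induction with
  | mem _ hx => obtain ⟨c, rfl⟩ := hx; exact h c
  | algebraMap c => rw [σ.commutes, τ.commutes]
  | add _ _ _ _ a b => rw [map_add, map_add, a, b]
  | inv _ _ a => rw [map_inv₀, map_inv₀, a]
  | mul _ _ _ _ a b => rw [map_mul, map_mul, a, b]

theorem ρ_inj : Function.Injective T.ρ := fun σ τ h =>
  T.ext_J fun c => by rw [← ρ_spec, ← ρ_spec, h]

theorem ρ_ine {P : Pl T.F} {R : Pl T.J} (o : Ov T.J P R) {σ : T.F ≃ₐ[K] T.F}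
    (h : σ ∈ ine (T.F ≃ₐ[K] T.F) P.toPlace) : T.ρ σ ∈ ine (T.J ≃ₐ[K₀] T.J) R.toPlace :=
  fun f hf => by
    have h1 : Zr P.toPlace (algebraMap T.J T.F (T.ρ σ f - f)) := by
      rw [map_sub, ρ_spec]; exact h _ ((o f).1 hf)
    exact h1.imp (map_eq_zero _).1 (o.ord_pos_iff _).1

theorem ei_tv {P : Pl T.F} {P₀ : Pl K} (o : Ov K P P₀) (h : Tv T.J P) : ei P P₀ = 1 := by
  have : ine (T.F ≃ₐ[K] T.F) P.toPlace = ⊥ := (Subgroup.eq_bot_iff_forall _).2 fun σ hσ =>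
    T.ext_J fun c => by
      have h1 : Zr P.toPlace (algebraMap T.J T.F (T.ρ σ c - c)) := by
        rw [map_sub, ρ_spec]; exact hσ _ (h c)
      have h2 := h1.resolve_right (by rw [h.ord]; omega)
      rwa [map_sub, ρ_spec, sub_eq_zero] at h2
  rw [ei_card o, this, Subgroup.card_bot, Nat.cast_one]

theorem ei_le {P : Pl T.F} {P₀ : Pl K} (o : Ov K P P₀) : ei P P₀ ≤ 120 := by
  have h1 := Subgroup.card_le_card_group (ine (T.F ≃ₐ[K] T.F) P.toPlace)
  rw [IsGalois.card_aut_eq_finrank] at h1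
  have := T.rkF
  rw [ei_card o]
  omega

/-- the lemma of Abhyankar -/
theorem ei_abh {P : Pl T.F} {P₀ : Pl K} {R : Pl T.J} {Q : Pl K₀} (o : Ov K P P₀) (o' : Ov T.J P R)
    (q : Ov K₀ R Q) (h : ei P₀ Q = 1) : ei P R = 1 ∧ ei P P₀ = ei R Q := by
  have h1 := ei_tow o Q
  have h2 := Nat.card_le_card_of_injective (fun σ : ine (T.F ≃ₐ[K] T.F) P.toPlace =>
    (⟨T.ρ σ.1, T.ρ_ine o' σ.2⟩ : ine (T.J ≃ₐ[K₀] T.J) R.toPlace))
    fun a b e => Subtype.ext (T.ρ_inj (congrArg Subtype.val e))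
  have h3 : ei P P₀ ≤ ei R Q := by rw [ei_card o, ei_card q]; exact_mod_cast h2
  have h4 := ei_gt o'
  have h5 := ei_gt q
  rw [ei_tow o' Q, h, mul_one] at h1
  have h6 : ei P R = 1 := by nlinarith
  exact ⟨h6, by rw [← h1, h6, one_mul]⟩

end Tow

/-- the row **ABH** -/
theorem abh : ABH := fun K₀ K _ _ _ _ _ _ h0 hK T P P₀ o => by
  refine ⟨fun h => ?_, T.ei_le o, fun Q q h hb => ?_⟩
  · have h1 : Tv T.J P := tv_up (L := K₀) fun f => by
      rw [IsScalarTower.algebraMap_apply K₀ K T.F]; exact (o _).1 (h f)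
    exact ⟨T.ei_tv o h1, h1⟩
  have q1 : Ov K₀ P Q := (ov_trans o).1 q
  obtain ⟨R, o'⟩ := (tv_or_ov (L := T.J) (T.ffF hK) P).resolve_left fun e => q1.not_trv fun f => by
    rw [IsScalarTower.algebraMap_apply K₀ T.J T.F]; exact e _
  have q2 : Ov K₀ R Q := (ov_trans o').2 q1
  obtain ⟨h1, h2⟩ := T.ei_abh o o' q2 h
  obtain ⟨R', q3, h3⟩ : ∃ R' : Pl T.J, Ov K₀ R' Q ∧ 1 < ei R' Q := by
    by_contra e; exact hb (if_neg e)
  rw [ei_eq q2 q3, ← h2, ei_card o, Nat.one_lt_cast, Subgroup.one_lt_card_iff_ne_bot,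
    Subgroup.ne_bot_iff_exists_ne_one] at h3
  obtain ⟨σ, hσ⟩ := h3
  exact ⟨⟨R.t, h1⟩, σ.1, fun e => hσ (Subtype.ext e), ine_iff.2 σ.2⟩

end Vale.Agent.P287D.Hd
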