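import Vale.Agent.P287D.Rm.Apx
import Vale.Agent.P287D.Pb.Abh0

/-!
# P287D: places over places, residues, conjugate places
-/

set_option linter.all false

open Vale.Agent.P297 (Place)
open Vale.Agent.P297Z IsLocalRing

noncomputable section

namespace Vale.Agent.P287D.Rm

variable {F K : Type} [Field F] [Field K]

/-- `P` lies over `Q` -/
def Ov (φ : F →+* K) (P : Place K) (Q : Place F) : Prop := ∀ f, f ∈ Q.ring ↔ φ f ∈ P.ring

section ov

variable {φ : F →+* K} {P : Place K} {Q Q' : Place F}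

theorem Ov.uniq (h : Ov φ P Q) (h' : Ov φ P Q') : Q = Q' :=
  Pl.ext' (ValuationSubring.ext _ _ fun f => (h f).trans (h' f).symm)

theorem Ov.pos (h : Ov φ P Q) {t : F} (ht : 0 < Q.ord t) : 0 < P.ord (φ t) := by
  apply Pl.ord_pos_of_inv_notMem
  rw [← map_inv₀, ← h, ← Pl.ord_nonneg_iff _ (inv_ne_zero (ne_of_ord ht.ne')), Pl.ord_inv]
  omega

theorem Ov.ord (h : Ov φ P Q) {t : F} (h1 : Q.ord t = 1) (f : F) :
    P.ord (φ f) = P.ord (φ t) * Q.ord f := by
  by_cases hf : f = 0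
  · simp [hf]
  have ht : t ≠ 0 := ne_of_ord (by omega : Q.ord t ≠ 0)
  have hz : t ^ Q.ord f ≠ 0 := zpow_ne_zero _ ht
  have hu : Q.ord (f / t ^ Q.ord f) = 0 := by
    rw [Pl.ord_div _ hf hz, Pl.ord_zpow, h1]; ring
  obtain ⟨h1, h2⟩ := (Pl.ord_eq_zero_iff _ (div_ne_zero hf hz)).1 hu
  have h3 : P.ord (φ (f / t ^ Q.ord f)) = 0 :=
    Pl.ord_unit _ ((h _).1 h1) (by rw [← map_inv₀]; exact (h _).1 h2)
  rw [map_div₀, Pl.ord_div _ ((map_ne_zero φ).2 hf) ((map_ne_zero φ).2 hz), map_zpow₀,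
    Pl.ord_zpow] at h3
  linarith

theorem Ov.one (h : Ov φ P Q) {u : F} (hu : P.ord (φ u) = 1) (f : F) :
    P.ord (φ f) = Q.ord f := by
  obtain ⟨t, -, ht⟩ := Pl.exists_ord_eq_one Q
  have h1 := h.ord ht u
  have h2 := h.pos (t := t) (by omega)
  rw [h.ord ht f, Int.eq_one_of_mul_eq_one_right h2.le (h1.symm.trans hu), one_mul]

theorem Ov.surj (h : Ov φ P Q) (hs : Function.Surjective φ) (f : F) :
    P.ord (φ f) = Q.ord f := by
  obtain ⟨u, -, hu⟩ := Pl.exists_ord_eq_one P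
  obtain ⟨u, rfl⟩ := hs u
  exact h.one hu f

theorem Ov.comp {E : Type} [Field E] {ψ : E →+* F} {R : Place E} (h : Ov φ P Q)
    (h' : Ov ψ Q R) : Ov (φ.comp ψ) P R := fun f => (h' f).trans (h _)

theorem Ov.of_comp {E : Type} [Field E] {ψ : E →+* F} {R : Place E} (h : Ov φ P Q)
    (h' : Ov (φ.comp ψ) P R) : Ov ψ Q R := fun f => (h' f).trans (h _).symm

/-- the restriction of a place -/
def lo (φ : F →+* K) (P : Place K) (h : ∃ f, P.ord (φ f) ≠ 0) : Place F :=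
  ⟨P.ring.comap φ, Pb.dvr_comap φ P fun e => by
    obtain ⟨f, hf⟩ := h
    refine hf (Pl.ord_unit P ?_ ?_)
    · rw [← ValuationSubring.mem_comap, e]; trivial
    · rw [← map_inv₀, ← ValuationSubring.mem_comap, e]; trivial⟩

theorem ov_lo (φ : F →+* K) (P : Place K) (h : ∃ f, P.ord (φ f) ≠ 0) : Ov φ P (lo φ P h) :=
  fun _ => Iff.rfl

end ov

section val

variable {P : Place K} {x y : K}

/-- `x` vanishes at `P` -/
def Zr (P : Place K) (x : K) : Prop := x = 0 ∨ 0 < P.ord x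

theorem zr_iff : Zr P x ↔ Pl.val P x < 1 := by
  by_cases h : x = 0
  · simp [Zr, h]
  · simp [Zr, h, Pl.ord_pos_iff_val P h]

theorem Zr.mem (h : Zr P x) : x ∈ P.ring := (Pl.mem_ring_iff P x).2 (zr_iff.1 h).le

theorem val_congr {Q : Place F} {z : F} (h0 : x = 0 ↔ z = 0) (h : P.ord x = Q.ord z) :
    Pl.val P x = Pl.val Q z := by
  by_cases e : x = 0
  · rw [e, h0.1 e, map_zero, map_zero]
  · rw [Pl.val_eq P x e, Pl.val_eq Q z (mt h0.2 e), h]

theorem ord_congr (h : Pl.val P x = Pl.val P y) : P.ord x = P.ord y := by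
  rw [Pl.ord_eq, Pl.ord_eq, h]

theorem val_one (hx : x ≠ 0) (h : P.ord x = 0) : Pl.val P x = 1 := by
  rw [Pl.val_eq P x hx, h]; rfl

theorem of_val_one (h : Pl.val P x = 1) : x ≠ 0 ∧ P.ord x = 0 :=
  ⟨fun e => by simp [e] at h, by rw [Pl.ord_eq, h]; rfl⟩

theorem val_pos (hx : x ≠ 0) : 0 < Pl.val P x := zero_lt_iff.2 ((Valuation.ne_zero_iff _).2 hx)

theorem val_lt (hx : x ≠ 0) (hy : y ≠ 0) : Pl.val P x < Pl.val P y ↔ P.ord y < P.ord x := by
  rw [Pl.val_eq P x hx, Pl.val_eq P y hy, WithZero.exp_lt_exp]; omega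

open Classical in
/-- the residue -/
def rs (P : Place K) (f : K) : ResidueField P.ring :=
  if h : f ∈ P.ring then residue P.ring ⟨f, h⟩ else 0

theorem rs_of (h : x ∈ P.ring) : rs P x = residue P.ring ⟨x, h⟩ := dif_pos h

theorem rs_coe (a : P.ring) : rs P a = residue P.ring a := rs_of a.2

theorem rs_one : rs P 1 = 1 := (rs_of P.ring.one_mem).trans (map_one (residue P.ring))

theorem rs_zero : rs P 0 = 0 := (rs_of P.ring.zero_mem).trans (map_zero (residue P.ring))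

theorem rs_mul (hx : x ∈ P.ring) (hy : y ∈ P.ring) : rs P (x * y) = rs P x * rs P y := by
  rw [rs_of hx, rs_of hy, rs_of (mul_mem hx hy), ← map_mul]; rfl

theorem rs_add (hx : x ∈ P.ring) (hy : y ∈ P.ring) : rs P (x + y) = rs P x + rs P y := by
  rw [rs_of hx, rs_of hy, rs_of (add_mem hx hy), ← map_add]; rfl

theorem rs_sub (hx : x ∈ P.ring) (hy : y ∈ P.ring) : rs P (x - y) = rs P x - rs P y := by
  rw [rs_of hx, rs_of hy, rs_of (sub_mem hx hy), ← map_sub]; rfl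

theorem rs_pow (hx : x ∈ P.ring) (n : ℕ) : rs P (x ^ n) = rs P x ^ n := by
  rw [rs_of hx, rs_of (pow_mem hx n), ← map_pow]; rfl

theorem rs_sum {ι : Type*} (s : Finset ι) (f : ι → K) (h : ∀ i ∈ s, f i ∈ P.ring) :
    rs P (∑ i ∈ s, f i) = ∑ i ∈ s, rs P (f i) := by
  classical
  induction s using Finset.induction_on with
  | empty => simp [rs_zero]
  | insert a s ha ih =>
    have h' := fun i hi => h i (Finset.mem_insert_of_mem hi)
    rw [Finset.sum_insert ha, Finset.sum_insert ha,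
      rs_add (h a (Finset.mem_insert_self _ _)) (sum_mem h'), ih h']

theorem rs_eq_zero (hx : x ∈ P.ring) : rs P x = 0 ↔ Zr P x := by
  rw [rs_of hx, residue_eq_zero_iff, Pl.mem_maximalIdeal_iff]; rfl

theorem rs_eq (hx : x ∈ P.ring) (hy : y ∈ P.ring) : rs P x = rs P y ↔ Zr P (x - y) := by
  rw [← rs_eq_zero (sub_mem hx hy), rs_sub hx hy, sub_eq_zero]

theorem rs_ne (hx : x ≠ 0) (h : P.ord x = 0) : rs P x ≠ 0 := fun e => by
  rcases (rs_eq_zero ((Pl.ord_eq_zero_iff P hx).1 h).1).1 e with e | e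
  · exact hx e
  · omega

theorem of_rs_ne (h : rs P x ≠ 0) : x ≠ 0 ∧ P.ord x = 0 := by
  have hx : x ∈ P.ring := by by_contra e; exact h (dif_neg e)
  rw [Ne, rs_eq_zero hx, Zr, not_or] at h
  have := Pl.ord_nonneg_of_mem P hx
  exact ⟨h.1, by omega⟩

theorem rs_inv (hx : x ≠ 0) (h : P.ord x = 0) : rs P x⁻¹ = (rs P x)⁻¹ := by
  obtain ⟨a, b⟩ := (Pl.ord_eq_zero_iff P hx).1 h
  refine eq_inv_of_mul_eq_one_right ?_
  rw [← rs_mul a b, mul_inv_cancel₀ hx, rs_one]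

theorem rs_zpow (hx : x ≠ 0) (h : P.ord x = 0) (n : ℤ) : rs P (x ^ n) = rs P x ^ n := by
  have a := ((Pl.ord_eq_zero_iff P hx).1 h).1
  obtain ⟨m, rfl | rfl⟩ := Int.eq_nat_or_neg n
  · rw [zpow_natCast, zpow_natCast, rs_pow a]
  · rw [zpow_neg, zpow_neg, zpow_natCast, zpow_natCast,
      rs_inv (pow_ne_zero m hx) (by rw [Pl.ord_pow, h, mul_zero]), rs_pow a]

theorem rs_nat (n : ℕ) : rs P n = n :=
  (rs_of (natCast_mem P.ring n)).trans (map_natCast (residue P.ring) n)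

theorem rs_surj (a : ResidueField P.ring) : ∃ x ∈ P.ring, rs P x = a := by
  obtain ⟨b, rfl⟩ := residue_surjective a
  exact ⟨b, b.2, rs_coe b⟩

end val

section act

variable {G : Type*} [Group G] [MulSemiringAction G K]

/-- the conjugate place -/
def mv (σ : G) (P : Place K) : Place K :=
  lo (MulSemiringAction.toRingHom G K σ) P (by
    obtain ⟨u, -, hu⟩ := Pl.exists_ord_eq_one P
    exact ⟨σ⁻¹ • u, by simp [hu]⟩)

variable {σ τ : G} {P : Place K}

theorem mem_mv {f : K} : f ∈ (mv σ P).ring ↔ σ • f ∈ P.ring := Iff.rfl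

theorem ord_mv (σ : G) (P : Place K) (f : K) : (mv σ P).ord f = P.ord (σ • f) :=
  ((ov_lo _ P _).surj (fun x => ⟨σ⁻¹ • x, by simp⟩) f).symm

theorem val_mv (σ : G) (P : Place K) (f : K) : Pl.val (mv σ P) f = Pl.val P (σ • f) :=
  val_congr (smul_eq_zero_iff_eq σ).symm (ord_mv σ P f)

theorem mv_one (P : Place K) : mv (1 : G) P = P :=
  Pl.ext' (ValuationSubring.ext _ _ fun f => by rw [mem_mv, one_smul])

theorem mv_mul (σ τ : G) (P : Place K) : mv (σ * τ) P = mv τ (mv σ P) :=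
  Pl.ext' (ValuationSubring.ext _ _ fun f => by rw [mem_mv, mem_mv, mem_mv, mul_smul])

variable (G) in
/-- the decomposition group -/
def dec (P : Place K) : Subgroup G where
  carrier := {σ | mv σ P = P}
  one_mem' := mv_one P
  mul_mem' := fun {a b} ha hb => by
    change mv (a * b) P = P
    rw [mv_mul, ha, hb]
  inv_mem' := fun {a} ha => by
    change mv a⁻¹ P = P
    have h := mv_mul a a⁻¹ P
    rw [mul_inv_cancel, mv_one, ha] at h
    exact h.symm

theorem mem_dec : σ ∈ dec G P ↔ mv σ P = P := Iff.rfl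

theorem dec_iff : σ ∈ dec G P ↔ ∀ f, σ • f ∈ P.ring ↔ f ∈ P.ring :=
  ⟨fun h f => by rw [← mem_mv, mem_dec.1 h], fun h => Pl.ext' (ValuationSubring.ext _ _ h)⟩

theorem dec_of_le (h : ∀ f ∈ P.ring, σ • f ∈ P.ring) : σ ∈ dec G P :=
  (Pl.eq_of_le' (v := P) (w := mv σ P) h).symm

theorem dec_ord (h : σ ∈ dec G P) (f : K) : P.ord (σ • f) = P.ord f := by
  rw [← ord_mv, mem_dec.1 h]

theorem dec_val (h : σ ∈ dec G P) (f : K) : Pl.val P (σ • f) = Pl.val P f := by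
  rw [← val_mv, mem_dec.1 h]

theorem dec_zr (h : σ ∈ dec G P) {f : K} : Zr P (σ • f) ↔ Zr P f := by
  rw [zr_iff, zr_iff, dec_val h]

theorem dec_of_zr (h : ∀ f ∈ P.ring, Zr P (σ • f - f)) : σ ∈ dec G P :=
  dec_of_le fun f hf => by simpa using add_mem (h f hf).mem hf

variable (G) in
/-- the inertia group -/
def ine (P : Place K) : Subgroup G where
  carrier := {σ | ∀ f ∈ P.ring, Zr P (σ • f - f)}
  one_mem' := fun f _ => Or.inl (by simp)
  mul_mem' := fun {a b} ha hb f hf => by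
    have e : (a * b) • f - f = (a • (b • f) - b • f) + (b • f - f) := by rw [mul_smul]; ring
    rw [e, zr_iff]
    exact Valuation.map_add_lt _ (zr_iff.1 (ha _ ((dec_iff.1 (dec_of_zr hb) f).2 hf)))
      (zr_iff.1 (hb f hf))
  inv_mem' := fun {a} ha f hf => by
    have hd := inv_mem (dec_of_zr ha)
    have h := ha _ ((dec_iff.1 hd f).2 hf)
    rw [smul_inv_smul, zr_iff, ← Valuation.map_sub_swap] at h
    exact zr_iff.2 h

theorem mem_ine : σ ∈ ine G P ↔ ∀ f ∈ P.ring, Zr P (σ • f - f) := Iff.rfl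

theorem ine_le : ine G P ≤ dec G P := fun _ h => dec_of_zr h

theorem ine_rs (h : σ ∈ ine G P) (f : K) : rs P (σ • f) = rs P f := by
  by_cases hf : f ∈ P.ring
  · exact (rs_eq ((dec_iff.1 (ine_le h) f).2 hf) hf).2 (h f hf)
  · rw [rs, rs, dif_neg hf, dif_neg (mt (dec_iff.1 (ine_le h) f).1 hf)]

theorem ine_of_rs (hd : σ ∈ dec G P) (h : ∀ f ∈ P.ring, rs P (σ • f) = rs P f) :
    σ ∈ ine G P := fun f hf => (rs_eq ((dec_iff.1 hd f).2 hf) hf).1 (h f hf)

theorem ine_mv : σ ∈ ine G (mv τ P) ↔ τ * σ * τ⁻¹ ∈ ine G P := by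
  have k : ∀ f : K, Zr (mv τ P) f ↔ Zr P (τ • f) := fun f => by rw [zr_iff, zr_iff, val_mv]
  constructor
  · intro h f hf
    have := (k _).1 (h (τ⁻¹ • f) (by rwa [mem_mv, smul_inv_smul]))
    rwa [smul_sub, smul_inv_smul, ← mul_smul, ← mul_smul] at this
  · intro h f hf
    have := h _ (mem_mv.1 hf)
    rw [k, smul_sub]
    rwa [mul_smul, inv_smul_smul, mul_smul] at this

end act

end Vale.Agent.P287D.Rm
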